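import Vale.Agent.P146.H94.Gauge
import Vale.Agent.P146.H478.Pla

/-!
The planted form (`H478.Pla`) of the gauge symmetric linear layered systems, and of the SK systems
with tree fields.
-/

open MeasureTheory ProbabilityTheory

namespace Vale.Agent.P146.H94

open Vale.Agent.P157 Vale.Agent.P157.Lv Vale.Agent.P157.Lv.Sy
open Vale.Agent.P146.H425
open Vale.Agent.P146.Ub (RI lc st dsk fd ph)
open Vale.Agent.P146.Ub.Ld (SN AN rlv rlv_le)

variable {ι X : Type} [Fintype ι] [Fintype X] [Nonempty X]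
variable {S : Sy ι X} {a : X → ι → ℝ} {c0 : ℝ} {x0 : X}

/-- gauge symmetric linear systems have a planted form -/
theorem pla (h : LinS S a (fun _ => c0)) (h0 : ∀ x e, S.lev e = 0 → a x e = 0)
    (G : Gg a x0) : H478.Pla S (a x0) (fun y => sg (G.chi y))
      (Fintype.card X * Real.exp (c0 - S.m 1 * S.fe)) where
  pos := mul_pos (Nat.cast_pos.2 Fintype.card_pos) (Real.exp_pos _)
  inv := fun m' _ _ hj y z => lg_inv_wm h G m' y hj z
  ex := fun _ hf hi => planted' h h0 G hf hi

/-- **the planted form of the SK systems** -/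
theorem SN_pla {n K N : ℕ} {m s : ℕ → ℝ} {β : ℝ} (hK : 1 ≤ K) (hm : WE K m) (hs0 : s 0 = 0) :
    H478.Pla (SN n K 1 m β N s) (st β N s (fun _ => true)) (fun y => sg (chs y))
      (Fintype.card (Fin n → Bool) * Real.exp (lc n - m 1 * AN n K 1 m β N s)) :=
  pla (SN_lin hK hm) (SN_zero hs0) (Gsk β N s)

end Vale.Agent.P146.H94
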