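import Vale.Agent.P146.H425.Sn

/-!
The planted gauge of a linear layered system: the log-weights are invariant under the sign changes,
and the tilted average of an invariant function is the average with the energy of one fixed
configuration and the density `exp (-∑ p_j lg_j)`.
-/

open MeasureTheory ProbabilityTheory

namespace Vale.Agent.P146.H94

open Vale.Agent.P157 Vale.Agent.P157.Lv Vale.Agent.P157.Lv.Sy
open Vale.Agent.P146.H425
open Vale.Agent.P146.Ub (RI lc st dsk fd ph)
open Vale.Agent.P146.Ub.Ld (SN AN rlv rlv_le)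
open Vale.Agent.P146 (Pair)

set_option linter.unusedSectionVars false
set_option linter.unusedVariables false

variable {ι X : Type} [Fintype ι] [Fintype X] [Nonempty X]

/-- Sign changes of the coordinates. -/
def sg (χ : ι → ℝ) (z : ι → ℝ) : ι → ℝ := fun e => χ e * z e

/-- A transitive gauge group of the coefficients `a`: signs `chi y` and permutations `op y` of the
configurations. -/
structure Gg (a : X → ι → ℝ) (x0 : X) where
  op : X → X ≃ X
  chi : X → ι → ℝ
  sq : ∀ y e, chi y e * chi y e = 1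
  act : ∀ y x e, a (op y x) e = chi y e * a x e
  tr : ∀ x, op x x0 = x

section sg

variable {χ : ι → ℝ}

omit [Fintype ι] in
lemma sg_sg (hχ : ∀ e, χ e * χ e = 1) (z : ι → ℝ) : sg χ (sg χ z) = z := by
  funext e
  unfold sg
  rw [← mul_assoc, hχ, one_mul]

omit [Fintype ι] in
lemma sg_mix (lev : ι → ℕ) (l : ℕ) (z w : ι → ℝ) :
    mix lev l (sg χ z) (sg χ w) = sg χ (mix lev l z w) := by
  funext e
  by_cases h : lev e ≤ l
  · simp only [mix, sg, if_pos h]
  · simp only [mix, sg, if_neg h]

omit [Fintype ι] in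
lemma measurable_sg : Measurable (sg χ) := by
  rw [measurable_pi_iff]
  intro e
  exact (measurable_pi_apply e).const_mul _

/-- the sign change as a measurable equivalence -/
def sgE (hχ : ∀ e, χ e * χ e = 1) : (ι → ℝ) ≃ᵐ (ι → ℝ) where
  toFun := sg χ
  invFun := sg χ
  left_inv := sg_sg hχ
  right_inv := sg_sg hχ
  measurable_toFun := measurable_sg
  measurable_invFun := measurable_sg

lemma mp_sg (hχ : ∀ e, χ e * χ e = 1) : MeasurePreserving (sg χ) (gI ι) (gI ι) := by
  have h1 : ∀ e : ι, MeasurePreserving (fun x : ℝ => χ e * x) (gaussianReal 0 1)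
      (gaussianReal 0 1) := by
    intro e
    refine ⟨measurable_const_mul _, ?_⟩
    have h2 := gaussianReal_map_const_mul (μ := 0) (v := 1) (χ e)
    have h3 : (fun x : ℝ => χ e * x) = (χ e * ·) := rfl
    rw [h3, h2, mul_zero]
    congr 1
    rw [mul_one]
    ext
    simp [sq, hχ e]
  exact measurePreserving_pi (fun _ => gaussianReal 0 1) (fun _ => gaussianReal 0 1) h1

lemma int_sg (hχ : ∀ e, χ e * χ e = 1) (g : (ι → ℝ) → ℝ) :
    ∫ z, g (sg χ z) ∂(gI ι) = ∫ z, g z ∂(gI ι) := by
  have h1 : MeasurePreserving (sgE hχ) (gI ι) (gI ι) := mp_sg hχ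
  exact h1.integral_comp' g

lemma J_sg (hχ : ∀ e, χ e * χ e = 1) (lev : ι → ℕ) (l : ℕ) {h : (ι → ℝ) → ℝ}
    (hh : ∀ z, h (sg χ z) = h z) (z : ι → ℝ) : J lev l h (sg χ z) = J lev l h z := by
  unfold J
  rw [← int_sg hχ fun w => h (mix lev l (sg χ z) w)]
  refine integral_congr_ae (Filter.Eventually.of_forall fun w => ?_)
  simp only
  rw [sg_mix, hh]

end sg

variable {S : Sy ι X} {a : X → ι → ℝ} {c0 : ℝ} {x0 : X} {m' : ℕ → ℝ}

/-- the log-weights are gauge invariant -/
theorem lg_inv (hH : ∀ z x, S.H z x = c0 + ∑ e, a x e * z e) (G : Gg a x0) (y : X) :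
    ∀ j ≤ S.K, ∀ z, S.lg j (sg (G.chi y) z) = S.lg j z := by
  refine down_ind (P := fun j => ∀ z, S.lg j (sg (G.chi y) z) = S.lg j z) ?_ ?_
  · intro z
    rw [lg_top]
    unfold Sy.top
    congr 1
    rw [← Equiv.sum_comp (G.op y) fun x => Real.exp (S.H z x)]
    refine Finset.sum_congr rfl fun x _ => ?_
    rw [hH, hH]
    congr 2
    refine Finset.sum_congr rfl fun e _ => ?_
    rw [G.act]
    unfold sg
    ring
  · intro j hj ih z
    rw [lg_step S hj]
    unfold stp
    congr 2
    exact J_sg (G.sq y) S.lev j (fun z => by rw [ih]) z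

/-- the log-weights of a system with other exponents are gauge invariant -/
theorem lg_inv_wm (h : LinS S a (fun _ => c0)) (G : Gg a x0) (m' : ℕ → ℝ) (y : X) {j : ℕ}
    (hj : j ≤ S.K) (z : ι → ℝ) : (wm S m').lg j (sg (G.chi y) z) = (wm S m').lg j z :=
  lg_inv (S := wm S m') (fun z x => h.H z x) G y j hj z

lemma tele (m L : ℕ → ℝ) : ∀ n : ℕ, ∑ i ∈ Finset.range n, m (i + 1) * (L (i + 1) - L i) =
    m (n + 1) * L n - ∑ j ∈ Finset.range (n + 1), (m (j + 1) - m j) * L j - m 0 * L 0
  | 0 => by simp; ring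
  | n + 1 => by
    rw [Finset.sum_range_succ, tele m L n, Finset.sum_range_succ _ (n + 1)]
    ring

/-- the tilted average of a function of the coordinates -/
lemma Ex_eq_dn (S : Sy ι X) (f : (ι → ℝ) → ℝ) :
    S.Ex (fun z _ => f z) = ∫ z, S.dn 0 z * f z ∂(gI ι) := by
  unfold Sy.Ex Sy.av
  refine integral_congr_ae (Filter.Eventually.of_forall fun z => ?_)
  simp only
  rw [← Finset.sum_mul, sum_gb, one_mul]

/-- the density of the tilted law -/
lemma dn_eq (hS : S.Reg) (z : ι → ℝ) : S.dn 0 z = Real.exp (S.top z) *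
    Real.exp (-∑ j ∈ Finset.range (S.K + 1), (S.m (j + 1) - S.m j) * S.lg j z) := by
  unfold Sy.dn
  rw [← Real.exp_add]
  congr 1
  have h1 := tele S.m (fun j => S.lg j z) S.K
  rw [Nat.Ico_zero_eq_range]
  rw [h1, hS.mK, hS.m0, one_mul, zero_mul, sub_zero, lg_top]
  ring

/-- **The planted identity.** -/
theorem planted (h : LinS S a (fun _ => c0)) (G : Gg a x0) {f : (ι → ℝ) → ℝ} (hf : EG f)
    (hi : ∀ y z, f (sg (G.chi y) z) = f z) :
    S.Ex (fun z _ => f z) = Fintype.card X * Real.exp c0 *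
      ∫ z, Real.exp (∑ e, a x0 e * z e - ∑ j ∈ Finset.range (S.K + 1),
        (S.m (j + 1) - S.m j) * S.lg j z) * f z ∂(gI ι) := by
  set E : (ι → ℝ) → ℝ := fun z => ∑ j ∈ Finset.range (S.K + 1),
    (S.m (j + 1) - S.m j) * S.lg j z with hE
  have hEi : ∀ y z, E (sg (G.chi y) z) = E z := by
    intro y z
    refine Finset.sum_congr rfl fun j hj => ?_
    rw [lg_inv h.H G y j (by have := Finset.mem_range.1 hj; omega)]
  have hEL : Lip E := Lip.sum _ fun j hj =>
    (h.reg.lip_lg (by have := Finset.mem_range.1 hj; omega)).const_mul _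
  have hEe : EG fun z => Real.exp (-E z) := by
    have := hEL.exp_eg (-1)
    simpa using this
  have hlin : ∀ x, EG fun z => Real.exp (S.H z x) := by
    intro x
    have := (h.reg.lip x).exp_eg 1
    simpa using this
  rw [Ex_eq_dn]
  have e1 : ∀ z, S.dn 0 z * f z = ∑ x, Real.exp (S.H z x) * (Real.exp (-E z) * f z) := by
    intro z
    rw [dn_eq h.reg, ← Finset.sum_mul]
    unfold Sy.top
    rw [Real.exp_log (sum_exp_pos z), mul_assoc]
  simp only [e1]
  rw [integral_finsetSum _ fun x _ => ((hlin x).mul (hEe.mul hf)).integrable]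
  have e2 : ∀ x, ∫ z, Real.exp (S.H z x) * (Real.exp (-E z) * f z) ∂(gI ι) =
      Real.exp c0 * ∫ z, Real.exp (∑ e, a x0 e * z e - E z) * f z ∂(gI ι) := by
    intro x
    rw [← int_sg (G.sq x), ← integral_const_mul]
    refine integral_congr_ae (Filter.Eventually.of_forall fun z => ?_)
    simp only
    rw [hEi, hi, h.H, sub_eq_add_neg, Real.exp_add, Real.exp_add]
    have e3 : ∑ e, a x e * sg (G.chi x) z e = ∑ e, a x0 e * z e := by
      refine Finset.sum_congr rfl fun e _ => ?_
      have e4 := G.act x x0 e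
      rw [G.tr] at e4
      rw [e4]
      unfold sg
      calc G.chi x e * a x0 e * (G.chi x e * z e) =
          (G.chi x e * G.chi x e) * (a x0 e * z e) := by ring
        _ = _ := by rw [G.sq, one_mul]
    rw [e3]
    ring
  simp only [e2]
  rw [Finset.sum_const, Finset.card_univ, nsmul_eq_mul]
  ring

/-- **The planted identity**, when the level zero is inert. -/
theorem planted' (h : LinS S a (fun _ => c0)) (h0 : ∀ x e, S.lev e = 0 → a x e = 0)
    (G : Gg a x0) {f : (ι → ℝ) → ℝ} (hf : EG f) (hi : ∀ y z, f (sg (G.chi y) z) = f z) :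
    S.Ex (fun z _ => f z) = Fintype.card X * Real.exp (c0 - S.m 1 * S.fe) *
      ∫ z, Real.exp (∑ e, a x0 e * z e - ∑ j ∈ Finset.Ico 1 (S.K + 1),
        (S.m (j + 1) - S.m j) * S.lg j z) * f z ∂(gI ι) := by
  classical
  rw [planted h G hf hi]
  have e1 : ∀ z, Real.exp (∑ e, a x0 e * z e - ∑ j ∈ Finset.range (S.K + 1),
        (S.m (j + 1) - S.m j) * S.lg j z) * f z =
      Real.exp (-(S.m 1 * S.fe)) * (Real.exp (∑ e, a x0 e * z e - ∑ j ∈ Finset.Ico 1 (S.K + 1),
        (S.m (j + 1) - S.m j) * S.lg j z) * f z) := by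
    intro z
    rw [← mul_assoc, ← Real.exp_add]
    congr 2
    rw [← Nat.Ico_zero_eq_range, Finset.sum_eq_sum_Ico_succ_bot (Nat.succ_pos _),
      lg_zero_const h h0 z, h.reg.m0]
    ring
  simp only [e1]
  rw [integral_const_mul, sub_eq_add_neg c0, Real.exp_add]
  ring

/-! ### the SK systems with tree fields -/

section SK

variable {n K d N : ℕ} {m s : ℕ → ℝ} {β : ℝ}

/-- the permutation `x ↦ (x i = y i)_i` of the cube -/
def opc (y : Fin n → Bool) : (Fin n → Bool) ≃ (Fin n → Bool) where
  toFun x := fun i => x i == y i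
  invFun x := fun i => x i == y i
  left_inv x := by
    funext i
    show ((x i == y i) == y i) = x i
    cases x i <;> cases y i <;> rfl
  right_inv x := by
    funext i
    show ((x i == y i) == y i) = x i
    cases x i <;> cases y i <;> rfl

lemma spin_opc (y x : Fin n → Bool) (i : Fin n) :
    spin (opc y x) i = spin y i * spin x i := by
  show (if (x i == y i) = true then (1 : ℝ) else -1) =
    (if y i = true then (1 : ℝ) else -1) * (if x i = true then (1 : ℝ) else -1)
  cases x i <;> cases y i <;> norm_num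

/-- the signs of the coordinates -/
noncomputable def chs (y : Fin n → Bool) : RI n K → ℝ
  | Sum.inl p => spin y p.1.1 * spin y p.1.2
  | Sum.inr (Sum.inl p) => spin y p.2
  | Sum.inr (Sum.inr _) => 1

/-- **the gauge group of the SK systems** -/
noncomputable def Gsk (β : ℝ) (N : ℕ) (s : ℕ → ℝ) :
    Gg (st (n := n) (K := K) β N s) (fun _ => true) where
  op := opc
  chi := chs
  sq := by
    intro y e
    have h := fun i => Ub.rc_spin_sq y i
    rcases e with p | p | l
    · show spin y p.1.1 * spin y p.1.2 * (spin y p.1.1 * spin y p.1.2) = 1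
      calc spin y p.1.1 * spin y p.1.2 * (spin y p.1.1 * spin y p.1.2) =
          (spin y p.1.1 * spin y p.1.1) * (spin y p.1.2 * spin y p.1.2) := by ring
        _ = 1 := by rw [h, h, one_mul]
    · exact h p.2
    · show (1 : ℝ) * 1 = 1
      norm_num
  act := by
    intro y x e
    have h := fun i => Ub.rc_spin_sq y i
    rcases e with p | p | l
    · show dsk (K := K) N (β / √N) (opc y x) (Sum.inl p) + fd (K := K) N s (opc y x) (Sum.inl p) =
        spin y p.1.1 * spin y p.1.2 *
          (dsk (K := K) N (β / √N) x (Sum.inl p) + fd (K := K) N s x (Sum.inl p))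
      rw [Ub.dsk_a, Ub.dsk_a, Ub.fd_a, Ub.fd_a]
      split_ifs
      · rw [spin_opc, spin_opc]
        ring
      · ring
    · show dsk (K := K) N (β / √N) (opc y x) (Sum.inr (Sum.inl p)) +
          fd (K := K) N s (opc y x) (Sum.inr (Sum.inl p)) =
        spin y p.2 * (dsk (K := K) N (β / √N) x (Sum.inr (Sum.inl p)) +
          fd (K := K) N s x (Sum.inr (Sum.inl p)))
      rw [Ub.dsk_b, Ub.dsk_b, Ub.fd_b, Ub.fd_b]
      split_ifs
      · rw [spin_opc]
        ring
      · ring
    · show dsk (K := K) N (β / √N) (opc y x) (Sum.inr (Sum.inr l)) +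
          fd (K := K) N s (opc y x) (Sum.inr (Sum.inr l)) =
        1 * (dsk (K := K) N (β / √N) x (Sum.inr (Sum.inr l)) +
          fd (K := K) N s x (Sum.inr (Sum.inr l)))
      rw [Ub.dsk_b, Ub.dsk_b, Ub.fd_c, Ub.fd_c]
      ring
  tr := by
    intro x
    funext i
    show (true == x i) = x i
    cases x i <;> rfl

/-- the log-weights of the SK systems are gauge invariant -/
theorem SN_lg_inv (y : Fin n → Bool) {j : ℕ} (hj : j ≤ K) (z : RI n K → ℝ) :
    (SN n K d m β N s).lg j (sg (chs y) z) = (SN n K d m β N s).lg j z :=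
  lg_inv (S := SN n K d m β N s) (c0 := lc n) (fun z x => by
    show lin (st β N s x) z + lc n = _
    rw [add_comm]
    rfl) (Gsk β N s) y j hj z

/-- **the planted identity of the SK systems** -/
theorem SN_planted (hK : 1 ≤ K) (hm : WE K m) (hs0 : s 0 = 0) {f : (RI n K → ℝ) → ℝ} (hf : EG f)
    (hi : ∀ y z, f (sg (chs y) z) = f z) :
    (SN n K 1 m β N s).Ex (fun z _ => f z) =
      Fintype.card (Fin n → Bool) * Real.exp (lc n - m 1 * AN n K 1 m β N s) *
      ∫ z, Real.exp (∑ e, st β N s (fun _ => true) e * z e - ∑ j ∈ Finset.Ico 1 (K + 1),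
        (m (j + 1) - m j) * (SN n K 1 m β N s).lg j z) * f z ∂(gI (RI n K)) :=
  planted' (SN_lin hK hm) (SN_zero hs0) (Gsk β N s) hf hi

end SK

end Vale.Agent.P146.H94
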